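import Vale.Agent.P116.AD.H984.End1

/-!
# P116, block [7]: the ends as an index type (row End3, helper169)

`end3`: from the hypotheses of `RowSel` the data of 841's `sel` for the type of the components
inside `w`: a point of each component, the finite set of big ends, the lengths of the end intervals
and the tail bound.
-/

open Set Filter Topology Metric

namespace Vale.Agent.P116.AD.H169

open H906
open KB (Hon oscC Eo oc)

/-- the tail bound for the sum over the functions -/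
lemma sum_sq_le {ι E : Type*} [Fintype ι] (o : ι → E → ℝ) (J : Finset E) {V : ℝ}
    (h : ∀ i, ∑ c ∈ J, o i c ^ 2 ≤ V) :
    ∑ c ∈ J, (∑ i, o i c) ^ 2 ≤ (Fintype.card ι : ℝ) ^ 2 * V := by
  have h1 : ∀ c ∈ J, (∑ i, o i c) ^ 2 ≤ (Fintype.card ι : ℝ) * ∑ i, o i c ^ 2 := by
    intro c _
    have := sq_sum_le_card_mul_sum_sq (s := (Finset.univ : Finset ι)) (f := fun i => o i c)
    simpa using this
  calc ∑ c ∈ J, (∑ i, o i c) ^ 2 ≤ ∑ c ∈ J, (Fintype.card ι : ℝ) * ∑ i, o i c ^ 2 :=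
        Finset.sum_le_sum h1
    _ = (Fintype.card ι : ℝ) * ∑ i, ∑ c ∈ J, o i c ^ 2 := by
        rw [← Finset.mul_sum, Finset.sum_comm]
    _ ≤ (Fintype.card ι : ℝ) * ∑ _i : ι, V :=
        mul_le_mul_of_nonneg_left (Finset.sum_le_sum fun i _ => h i) (Nat.cast_nonneg _)
    _ = (Fintype.card ι : ℝ) ^ 2 * V := by
        rw [Finset.sum_const, Finset.card_univ, nsmul_eq_mul]
        ring

/-- **ROW End3**: points of the components inside `w`, big ends, end intervals, tail bound -/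
theorem end3 {ι : Type*} [Fintype ι] {K w : Set ℂ} (hK : IsCompact K) {u r : ι → ℂ → ℝ}
    (hH : ∀ i, Hon K w (u i) (r i)) (F : Finset (Set ℂ)) {V : ℝ}
    (hV : ∀ i, ∀ J : Finset (Set ℂ), (∀ c ∈ J, c ∈ comps K ∧ c ⊆ w ∧ c ∉ F) →
      ∑ c ∈ J, oscC K (u i) c ^ 2 ≤ V) :
    ∃ (p : {c : Set ℂ // c ∈ comps K ∧ c ⊆ w} → ℂ)
      (F' : Finset {c : Set ℂ // c ∈ comps K ∧ c ⊆ w}),
      (∀ c, p c ∈ K ∩ w ∧ connectedComponentIn K (p c) = c) ∧
      F'.card ≤ F.card ∧ (∀ c, c ∈ F' ↔ (c : Set ℂ) ∈ F) ∧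
      (∀ c i, aE K (u i) (p c) ≤ bE K (u i) (p c)) ∧
      (∀ c i, bE K (u i) (p c) - aE K (u i) (p c) = oscC K (u i) c) ∧
      ∀ J : Finset {c : Set ℂ // c ∈ comps K ∧ c ⊆ w}, Disjoint J F' →
        ∑ c ∈ J, (∑ i, (bE K (u i) (p c) - aE K (u i) (p c))) ^ 2 ≤
          (Fintype.card ι : ℝ) ^ 2 * V := by
  classical
  have hp : ∀ c : {c : Set ℂ // c ∈ comps K ∧ c ⊆ w}, ∃ p : ℂ, p ∈ K ∩ w ∧
      connectedComponentIn K p = c := by
    rintro ⟨c, ⟨t, ht, rfl⟩, hc⟩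
    exact ⟨t, ⟨ht, hc (mem_connectedComponentIn ht)⟩, rfl⟩
  choose p hp1 hp2 using hp
  have hosc : ∀ c i, bE K (u i) (p c) - aE K (u i) (p c) = oscC K (u i) c := by
    intro c i
    rw [← H984.oscC_eq_sub hK (hH i).bdK (hp1 c).1, hp2]
  refine ⟨p, F.subtype _, fun c => ⟨hp1 c, hp2 c⟩, ?_, fun c => by rw [Finset.mem_subtype],
    fun c i => H984.aE_le_bE hK (hH i).bdK (hp1 c).1, hosc, fun J hJ => ?_⟩
  · rw [Finset.card_subtype]
    exact Finset.card_filter_le _ _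
  · simp only [hosc]
    refine sum_sq_le (fun i (c : {c : Set ℂ // c ∈ comps K ∧ c ⊆ w}) => oscC K (u i) c) J
      fun i => ?_
    have h1 := hV i (J.map (Function.Embedding.subtype _)) (by
      intro c hc
      obtain ⟨c', hc', rfl⟩ := Finset.mem_map.1 hc
      refine ⟨c'.2.1, c'.2.2, fun h => ?_⟩
      exact Finset.disjoint_left.1 hJ hc' (Finset.mem_subtype.2 h))
    rw [Finset.sum_map] at h1
    exact h1

/-- the sum over the components inside `w` is at most the total -/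
theorem sum_le_Eo {K w : Set ℂ} {u r : ℂ → ℝ} (h : Hon K w u r)
    (J : Finset {c : Set ℂ // c ∈ comps K ∧ c ⊆ w}) : ∑ c ∈ J, oscC K u c ^ 2 ≤ Eo K w u := by
  classical
  let e : {c : Set ℂ // c ∈ comps K ∧ c ⊆ w} ↪ comps K :=
    ⟨fun c => ⟨c, c.2.1⟩, fun a b hab => by
      have := congrArg (Subtype.val) hab
      exact Subtype.ext this⟩
  have h4 : ∑ c ∈ J, oscC K u c ^ 2 = ∑ c ∈ J.map e, oc K w u (c : Set ℂ) := by
    rw [Finset.sum_map]
    refine Finset.sum_congr rfl fun c _ => ?_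
    exact (KB.oc_of_sub c.2.2).symm
  rw [h4]
  exact h.sum'.sum_le_tsum _ fun c _ => KB.oc_nonneg _ _ _ _

end Vale.Agent.P116.AD.H169
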